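import Mathlib
import Vale.Agent.Lib.P047.Defs

/-!
The biased expectation polynomial of a function on the cube and the reverse Poincare inequality
for functions of bounded Fourier degree under a biased product measure.
-/

namespace Vale.Agent.Lib.P047

open Finset Polynomial

variable {n : ℕ}

/-- restriction to first coordinate true -/
def pl (g : (Fin (n + 1) → Bool) → ℝ) (y : Fin n → Bool) : ℝ := g (Fin.cons true y)
/-- restriction to first coordinate false -/
def mi (g : (Fin (n + 1) → Bool) → ℝ) (y : Fin n → Bool) : ℝ := g (Fin.cons false y)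
/-- average over the first coordinate -/
noncomputable def av (g : (Fin (n + 1) → Bool) → ℝ) (y : Fin n → Bool) : ℝ := (pl g y + mi g y) / 2
/-- discrete derivative in the first coordinate -/
noncomputable def df (g : (Fin (n + 1) → Bool) → ℝ) (y : Fin n → Bool) : ℝ := (pl g y - mi g y) / 2

lemma sum_cube_succ (h : (Fin (n + 1) → Bool) → ℝ) :
    ∑ x, h x = ∑ y, h (Fin.cons true y) + ∑ y, h (Fin.cons false y) := by
  rw [← (Fin.consEquiv (fun _ : Fin (n + 1) => Bool)).sum_comp h, Fintype.sum_prod_type,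
    Fintype.sum_bool]
  rfl

lemma prod_map_succ (S : Finset (Fin n)) (b : Bool) (y : Fin n → Bool) :
    ∏ i ∈ S.map (Fin.succEmb n), sgn ((Fin.cons b y : Fin (n + 1) → Bool) i)
      = ∏ i ∈ S, sgn (y i) := by
  rw [Finset.prod_map]
  simp

lemma fourier_av (g : (Fin (n + 1) → Bool) → ℝ) (S : Finset (Fin n)) :
    fourier (av g) S = fourier g (S.map (Fin.succEmb n)) := by
  unfold fourier
  rw [sum_cube_succ]
  simp only [prod_map_succ]
  rw [← sum_add_distrib, pow_succ]
  have : ∀ y : Fin n → Bool, av g y * ∏ i ∈ S, sgn (y i)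
      = (g (Fin.cons true y) * ∏ i ∈ S, sgn (y i)
          + g (Fin.cons false y) * ∏ i ∈ S, sgn (y i)) / 2 := by
    intro y; unfold av pl mi; ring
  simp only [this]
  rw [← sum_div, div_div, show (2:ℝ) * 2 ^ n = 2 ^ n * 2 by ring]

lemma zero_not_mem_map (S : Finset (Fin n)) : (0 : Fin (n + 1)) ∉ S.map (Fin.succEmb n) := by
  simp [Fin.succ_ne_zero]

lemma fourier_df (g : (Fin (n + 1) → Bool) → ℝ) (S : Finset (Fin n)) :
    fourier (df g) S = fourier g (insert 0 (S.map (Fin.succEmb n))) := by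
  unfold fourier
  rw [sum_cube_succ]
  simp only [prod_insert (zero_not_mem_map S), prod_map_succ, Fin.cons_zero]
  rw [← sum_add_distrib, pow_succ]
  have : ∀ y : Fin n → Bool, df g y * ∏ i ∈ S, sgn (y i)
      = (g (Fin.cons true y) * (sgn true * ∏ i ∈ S, sgn (y i))
          + g (Fin.cons false y) * (sgn false * ∏ i ∈ S, sgn (y i))) / 2 := by
    intro y; unfold df pl mi sgn; simp; ring
  simp only [this]
  rw [← sum_div, div_div, show (2:ℝ) * 2 ^ n = 2 ^ n * 2 by ring]

lemma pl_eq (g : (Fin (n + 1) → Bool) → ℝ) (y) : pl g y = av g y + df g y := by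
  unfold av df; ring

lemma mi_eq (g : (Fin (n + 1) → Bool) → ℝ) (y) : mi g y = av g y - df g y := by
  unfold av df; ring

/-- The polynomial `t ↦ E_t[g]`, expectation under the product measure with mean `t`. -/
noncomputable def bpoly : (n : ℕ) → ((Fin n → Bool) → ℝ) → ℝ[X]
  | 0, g => C (g Fin.elim0)
  | n + 1, g => bpoly n (av g) + X * bpoly n (df g)

lemma bpoly_add : ∀ (n : ℕ) (g h : (Fin n → Bool) → ℝ),
    bpoly n (fun y => g y + h y) = bpoly n g + bpoly n h
  | 0, g, h => by simp [bpoly]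
  | n + 1, g, h => by
    have e1 : av (fun y => g y + h y) = fun y => av g y + av h y := by
      funext y; unfold av pl mi; ring
    have e2 : df (fun y => g y + h y) = fun y => df g y + df h y := by
      funext y; unfold df pl mi; ring
    simp only [bpoly, e1, e2, bpoly_add n]
    ring

lemma bpoly_smul : ∀ (n : ℕ) (c : ℝ) (g : (Fin n → Bool) → ℝ),
    bpoly n (fun y => c * g y) = C c * bpoly n g
  | 0, c, g => by simp [bpoly]
  | n + 1, c, g => by
    have e1 : av (fun y => c * g y) = fun y => c * av g y := by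
      funext y; unfold av pl mi; ring
    have e2 : df (fun y => c * g y) = fun y => c * df g y := by
      funext y; unfold df pl mi; ring
    simp only [bpoly, e1, e2, bpoly_smul n]
    ring

lemma bpoly_const : ∀ (n : ℕ) (c : ℝ), bpoly n (fun _ => c) = C c
  | 0, c => by simp [bpoly]
  | n + 1, c => by
    have e1 : av (fun _ : Fin (n + 1) → Bool => c) = fun _ => c := by
      funext y; unfold av pl mi; ring
    have e2 : df (fun _ : Fin (n + 1) → Bool => c) = fun _ => 0 := by
      funext y; unfold df pl mi; ring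
    simp only [bpoly, e1, e2, bpoly_const n]
    simp

/-- The biased expectation. -/
noncomputable def Ex (t : ℝ) (g : (Fin n → Bool) → ℝ) : ℝ := (bpoly n g).eval t

lemma Ex_add (t : ℝ) (g h : (Fin n → Bool) → ℝ) : Ex t (fun y => g y + h y) = Ex t g + Ex t h := by
  simp [Ex, bpoly_add]

lemma Ex_smul (t c : ℝ) (g : (Fin n → Bool) → ℝ) : Ex t (fun y => c * g y) = c * Ex t g := by
  simp [Ex, bpoly_smul]

lemma Ex_const (t c : ℝ) : Ex t (fun _ : Fin n → Bool => c) = c := by
  simp [Ex, bpoly_const]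

lemma Ex_sub (t : ℝ) (g h : (Fin n → Bool) → ℝ) : Ex t (fun y => g y - h y) = Ex t g - Ex t h := by
  have : (fun y => g y - h y) = fun y => g y + (-1) * h y := by funext y; ring
  rw [this, Ex_add, Ex_smul]; ring

lemma Ex_neg (t : ℝ) (g : (Fin n → Bool) → ℝ) : Ex t (fun y => - g y) = - Ex t g := by
  have : (fun y => - g y) = fun y => (-1) * g y := by funext y; ring
  rw [this, Ex_smul]; ring

/-- first recursion for `Ex`. -/
lemma Ex_succ (t : ℝ) (g : (Fin (n + 1) → Bool) → ℝ) : Ex t g = Ex t (av g) + t * Ex t (df g) := by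
  simp [Ex, bpoly]

lemma pl_fun (g : (Fin (n + 1) → Bool) → ℝ) : pl g = fun y => av g y + df g y := funext (pl_eq g)
lemma mi_fun (g : (Fin (n + 1) → Bool) → ℝ) : mi g = fun y => av g y - df g y := funext (mi_eq g)

/-- second recursion for `Ex`: the product measure structure. -/
lemma Ex_succ' (t : ℝ) (g : (Fin (n + 1) → Bool) → ℝ) :
    Ex t g = (1 + t) / 2 * Ex t (pl g) + (1 - t) / 2 * Ex t (mi g) := by
  rw [Ex_succ, pl_fun, mi_fun, Ex_add, Ex_sub]; ring

lemma Ex_nonneg {t : ℝ} (ht : |t| ≤ 1) : ∀ {n : ℕ} (g : (Fin n → Bool) → ℝ), (∀ y, 0 ≤ g y) → 0 ≤ Ex t g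
  | 0, g, hg => by simpa [Ex, bpoly] using hg _
  | n + 1, g, hg => by
    rw [Ex_succ']
    have h1 : 0 ≤ (1 + t) / 2 := by linarith [(abs_le.mp ht).1]
    have h2 : 0 ≤ (1 - t) / 2 := by linarith [(abs_le.mp ht).2]
    have h3 := Ex_nonneg ht (pl g) (fun y => hg _)
    have h4 := Ex_nonneg ht (mi g) (fun y => hg _)
    positivity

lemma Ex_mono {t : ℝ} (ht : |t| ≤ 1) {g h : (Fin n → Bool) → ℝ} (hgh : ∀ y, g y ≤ h y) :
    Ex t g ≤ Ex t h := by
  have := Ex_nonneg ht (fun y => h y - g y) (fun y => sub_nonneg.mpr (hgh y))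
  rw [Ex_sub] at this
  linarith

lemma eq_cons_cases (x : Fin (n + 1) → Bool) : ∃ b y, x = Fin.cons b y :=
  ⟨x 0, Fin.tail x, (Fin.cons_self_tail x).symm⟩

lemma cube_ext_of_pl_mi {g : (Fin (n + 1) → Bool) → ℝ} (h1 : pl g = 0) (h2 : mi g = 0) : g = 0 := by
  funext x
  obtain ⟨b, y, rfl⟩ := eq_cons_cases x
  cases b
  · exact congrFun h2 y
  · exact congrFun h1 y

/-- Strict positivity for `t` in the open interval. -/
lemma eq_zero_of_Ex_eq_zero {t : ℝ} (ht : |t| < 1) : ∀ {n : ℕ} (g : (Fin n → Bool) → ℝ),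
    (∀ y, 0 ≤ g y) → Ex t g = 0 → g = 0
  | 0, g, hg, h => by
    funext x
    have : x = Fin.elim0 := Subsingleton.elim _ _
    rw [this]
    simpa [Ex, bpoly] using h
  | n + 1, g, hg, h => by
    rw [Ex_succ'] at h
    have h1 : 0 < (1 + t) / 2 := by linarith [(abs_lt.mp ht).1]
    have h2 : 0 < (1 - t) / 2 := by linarith [(abs_lt.mp ht).2]
    have h3 := Ex_nonneg ht.le (pl g) (fun y => hg _)
    have h4 := Ex_nonneg ht.le (mi g) (fun y => hg _)
    have h5 : Ex t (pl g) = 0 := by
      have : 0 ≤ (1 + t) / 2 * Ex t (pl g) := by positivity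
      have h6 : 0 ≤ (1 - t) / 2 * Ex t (mi g) := by positivity
      have h7 : (1 + t) / 2 * Ex t (pl g) = 0 := by linarith
      exact (mul_eq_zero.mp h7).resolve_left h1.ne'
    have h6 : Ex t (mi g) = 0 := by
      have : 0 ≤ (1 + t) / 2 * Ex t (pl g) := by positivity
      have h6 : 0 ≤ (1 - t) / 2 * Ex t (mi g) := by positivity
      have h7 : (1 - t) / 2 * Ex t (mi g) = 0 := by linarith
      exact (mul_eq_zero.mp h7).resolve_left h2.ne'
    exact cube_ext_of_pl_mi (eq_zero_of_Ex_eq_zero ht (pl g) (fun y => hg _) h5)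
      (eq_zero_of_Ex_eq_zero ht (mi g) (fun y => hg _) h6)

/-- The total squared discrete gradient under the biased measure. -/
noncomputable def Qd (t : ℝ) : (n : ℕ) → ((Fin n → Bool) → ℝ) → ℝ
  | 0, _ => 0
  | n + 1, g => Ex t (fun y => (df g y) ^ 2)
      + (1 + t) / 2 * Qd t n (pl g) + (1 - t) / 2 * Qd t n (mi g)

/-- quadratic identity underlying the tensorization. -/
lemma Ex_quad (t : ℝ) (a b : (Fin n → Bool) → ℝ) :
    (1 + t) / 2 * Ex t (fun y => (a y + (1 - t) * b y) ^ 2)
      + (1 - t) / 2 * Ex t (fun y => (a y - (1 + t) * b y) ^ 2)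
      = Ex t (fun y => (a y) ^ 2) + (1 - t ^ 2) * Ex t (fun y => (b y) ^ 2) := by
  have e1 : (fun y => (a y + (1 - t) * b y) ^ 2)
      = fun y => (a y) ^ 2 + (2 * (1 - t)) * (a y * b y) + (1 - t) ^ 2 * (b y) ^ 2 := by
    funext y; ring
  have e2 : (fun y => (a y - (1 + t) * b y) ^ 2)
      = fun y => (a y) ^ 2 + (- (2 * (1 + t))) * (a y * b y) + (1 + t) ^ 2 * (b y) ^ 2 := by
    funext y; ring
  rw [e1, e2]
  simp only [Ex_add, Ex_smul]
  ring

lemma Qd_quad (t : ℝ) : ∀ {n : ℕ} (a b : (Fin n → Bool) → ℝ),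
    (1 + t) / 2 * Qd t n (fun y => a y + (1 - t) * b y)
      + (1 - t) / 2 * Qd t n (fun y => a y - (1 + t) * b y)
      = Qd t n a + (1 - t ^ 2) * Qd t n b
  | 0, a, b => by simp [Qd]
  | n + 1, a, b => by
    have d1 : df (fun y => a y + (1 - t) * b y) = fun y => df a y + (1 - t) * df b y := by
      funext y; unfold df pl mi; ring
    have d2 : df (fun y => a y - (1 + t) * b y) = fun y => df a y - (1 + t) * df b y := by
      funext y; unfold df pl mi; ring
    have p1 : pl (fun y => a y + (1 - t) * b y) = fun y => pl a y + (1 - t) * pl b y := rfl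
    have p2 : pl (fun y => a y - (1 + t) * b y) = fun y => pl a y - (1 + t) * pl b y := rfl
    have m1 : mi (fun y => a y + (1 - t) * b y) = fun y => mi a y + (1 - t) * mi b y := rfl
    have m2 : mi (fun y => a y - (1 + t) * b y) = fun y => mi a y - (1 + t) * mi b y := rfl
    simp only [Qd, d1, d2, p1, p2, m1, m2]
    have h1 := Qd_quad t (pl a) (pl b)
    have h2 := Qd_quad t (mi a) (mi b)
    have h3 := Ex_quad t (df a) (df b)
    linear_combination h3 + (1 + t) / 2 * h1 + (1 - t) / 2 * h2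

/-- `g₀ = av g + t df g`, the conditional expectation given the other coordinates. -/
noncomputable def g0 (t : ℝ) (g : (Fin (n + 1) → Bool) → ℝ) (y : Fin n → Bool) : ℝ :=
  av g y + t * df g y

lemma pl_eq_g0 (t : ℝ) (g : (Fin (n + 1) → Bool) → ℝ) :
    pl g = fun y => g0 t g y + (1 - t) * df g y := by
  funext y; unfold g0; rw [pl_eq]; ring

lemma mi_eq_g0 (t : ℝ) (g : (Fin (n + 1) → Bool) → ℝ) :
    mi g = fun y => g0 t g y - (1 + t) * df g y := by
  funext y; unfold g0; rw [mi_eq]; ring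

lemma Qd_succ_g0 (t : ℝ) (g : (Fin (n + 1) → Bool) → ℝ) :
    Qd t (n + 1) g = Ex t (fun y => (df g y) ^ 2) + Qd t n (g0 t g) + (1 - t ^ 2) * Qd t n (df g) := by
  have h := Qd_quad t (g0 t g) (df g)
  simp only [Qd]
  rw [pl_eq_g0 t g, mi_eq_g0 t g]
  linear_combination h

/-- The variance under the biased measure. -/
noncomputable def Vr (t : ℝ) (g : (Fin n → Bool) → ℝ) : ℝ :=
  Ex t (fun y => (g y) ^ 2) - (Ex t g) ^ 2

lemma Ex_g0 (t : ℝ) (g : (Fin (n + 1) → Bool) → ℝ) : Ex t g = Ex t (g0 t g) := by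
  unfold g0
  rw [Ex_succ, Ex_add, Ex_smul]

lemma Ex_sq_succ (t : ℝ) (g : (Fin (n + 1) → Bool) → ℝ) :
    Ex t (fun y => (g y) ^ 2)
      = Ex t (fun y => (g0 t g y) ^ 2) + (1 - t ^ 2) * Ex t (fun y => (df g y) ^ 2) := by
  rw [Ex_succ']
  have e1 : pl (fun y => (g y) ^ 2) = fun y => (g0 t g y + (1 - t) * df g y) ^ 2 := by
    funext y
    have h : pl g y = g0 t g y + (1 - t) * df g y := congrFun (pl_eq_g0 t g) y
    rw [← h]; rfl
  have e2 : mi (fun y => (g y) ^ 2) = fun y => (g0 t g y - (1 + t) * df g y) ^ 2 := by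
    funext y
    have h : mi g y = g0 t g y - (1 + t) * df g y := congrFun (mi_eq_g0 t g) y
    rw [← h]; rfl
  rw [e1, e2, Ex_quad]

lemma Vr_succ (t : ℝ) (g : (Fin (n + 1) → Bool) → ℝ) :
    Vr t g = Vr t (g0 t g) + (1 - t ^ 2) * Ex t (fun y => (df g y) ^ 2) := by
  unfold Vr
  rw [Ex_sq_succ, ← Ex_g0]; ring

lemma Vr_le (t : ℝ) (g : (Fin n → Bool) → ℝ) : Vr t g ≤ Ex t (fun y => (g y) ^ 2) := by
  unfold Vr; nlinarith [sq_nonneg (Ex t g)]

lemma eq_zero_of_fourier : ∀ {n : ℕ} (g : (Fin n → Bool) → ℝ), (∀ S, fourier g S = 0) → g = 0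
  | 0, g, h => by
    funext x
    have h0 := h ∅
    simp [fourier] at h0
    have hx : ∀ z : Fin 0 → Bool, x = z := fun z => Subsingleton.elim _ _
    show g x = 0
    rw [hx _]
    exact h0
  | n + 1, g, h => by
    have h1 : av g = 0 := eq_zero_of_fourier _ (fun S => by rw [fourier_av]; exact h _)
    have h2 : df g = 0 := eq_zero_of_fourier _ (fun S => by rw [fourier_df]; exact h _)
    apply cube_ext_of_pl_mi
    · rw [pl_fun, h1, h2]; funext y; simp
    · rw [mi_fun, h1, h2]; funext y; simp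

lemma DegLE_av {g : (Fin (n + 1) → Bool) → ℝ} {d : ℕ} (h : DegLE g d) : DegLE (av g) d := by
  intro S hS
  rw [fourier_av]
  apply h
  rwa [Finset.card_map]

lemma DegLE_df {g : (Fin (n + 1) → Bool) → ℝ} {d : ℕ} (h : DegLE g (d + 1)) : DegLE (df g) d := by
  intro S hS
  rw [fourier_df]
  apply h
  rw [Finset.card_insert_of_notMem (zero_not_mem_map S), Finset.card_map]
  omega

lemma DegLE_df_le {g : (Fin (n + 1) → Bool) → ℝ} {d : ℕ} (h : DegLE g d) : DegLE (df g) d := by
  intro S hS
  rw [fourier_df]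
  apply h
  rw [Finset.card_insert_of_notMem (zero_not_mem_map S), Finset.card_map]
  omega

lemma df_eq_zero {g : (Fin (n + 1) → Bool) → ℝ} (h : DegLE g 0) : df g = 0 := by
  apply eq_zero_of_fourier
  intro S
  rw [fourier_df]
  apply h
  rw [Finset.card_insert_of_notMem (zero_not_mem_map S), Finset.card_map]
  omega

lemma fourier_add_smul {g h : (Fin n → Bool) → ℝ} (c : ℝ) (S : Finset (Fin n)) :
    fourier (fun y => g y + c * h y) S = fourier g S + c * fourier h S := by
  unfold fourier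
  simp only [add_mul, sum_add_distrib, add_div, mul_assoc, ← mul_sum, mul_div_assoc]

lemma DegLE_g0 {t : ℝ} {g : (Fin (n + 1) → Bool) → ℝ} {d : ℕ} (h : DegLE g d) :
    DegLE (g0 t g) d := by
  intro S hS
  unfold g0
  rw [fourier_add_smul, DegLE_av h S hS, DegLE_df_le h S hS]
  simp

lemma bpoly_natDegree : ∀ {n : ℕ} (g : (Fin n → Bool) → ℝ) (d : ℕ), DegLE g d →
    (bpoly n g).natDegree ≤ d
  | 0, g, d, _ => by simp [bpoly]
  | n + 1, g, d, h => by
    simp only [bpoly]
    apply (natDegree_add_le _ _).trans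
    apply max_le (bpoly_natDegree _ d (DegLE_av h))
    cases d with
    | zero =>
      rw [df_eq_zero h]
      have : bpoly n (0 : (Fin n → Bool) → ℝ) = 0 := by
        have h0 := bpoly_const n 0
        rw [show (fun _ : Fin n → Bool => (0:ℝ)) = 0 from rfl] at h0
        simpa using h0
      rw [this]; simp
    | succ d =>
      apply natDegree_mul_le.trans
      have := bpoly_natDegree _ d (DegLE_df h)
      simp only [natDegree_X]
      omega

/-- **Reverse Poincare inequality for the biased measure.** -/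
theorem poincare {t : ℝ} (ht : t ^ 2 ≤ 1) : ∀ {n : ℕ} (g : (Fin n → Bool) → ℝ) (d : ℕ), DegLE g d →
    (1 - t ^ 2) * Qd t n g ≤ d * Vr t g
  | 0, g, d, _ => by
    simp only [Qd, mul_zero]
    have : Vr t g = 0 := by
      unfold Vr
      have e : ∀ h : (Fin 0 → Bool) → ℝ, Ex t h = h Fin.elim0 := by intro h; simp [Ex, bpoly]
      rw [e, e]; ring
    rw [this]; simp
  | n + 1, g, d, h => by
    rw [Qd_succ_g0, Vr_succ]
    have hs : 0 ≤ 1 - t ^ 2 := by linarith
    have h1 := poincare ht (g0 t g) d (DegLE_g0 h)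
    cases d with
    | zero =>
      rw [df_eq_zero h]
      have e0 : (fun y => ((0 : (Fin n → Bool) → ℝ) y) ^ 2) = fun _ => (0 : ℝ) := by
        funext y; simp
      have e1 : Qd t n (0 : (Fin n → Bool) → ℝ) = 0 := by
        have h2 : ∀ {m : ℕ}, Qd t m (0 : (Fin m → Bool) → ℝ) = 0 := by
          intro m
          induction m with
          | zero => simp [Qd]
          | succ m ih =>
            have a1 : df (0 : (Fin (m + 1) → Bool) → ℝ) = 0 := by
              funext y; simp [df, pl, mi]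
            have a2 : pl (0 : (Fin (m + 1) → Bool) → ℝ) = 0 := rfl
            have a3 : mi (0 : (Fin (m + 1) → Bool) → ℝ) = 0 := rfl
            simp only [Qd, a1, a2, a3, ih]
            have e0' : (fun y => ((0 : (Fin m → Bool) → ℝ) y) ^ 2) = fun _ => (0 : ℝ) := by
              funext y; simp
            rw [e0', Ex_const]; ring
        exact h2
      simp only [e0, Ex_const, e1]
      simp only [Nat.cast_zero, zero_mul] at h1 ⊢
      linarith
    | succ d =>
      have h2 := poincare ht (df g) d (DegLE_df h)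
      have h3 := Vr_le t (df g)
      have h4 : (1 - t ^ 2) * ((1 - t ^ 2) * Qd t n (df g)) ≤ (1 - t ^ 2) * (d * Vr t (df g)) :=
        mul_le_mul_of_nonneg_left h2 hs
      have h5 : (1 - t ^ 2) * (d * Vr t (df g))
          ≤ (1 - t ^ 2) * (d * Ex t (fun y => (df g y) ^ 2)) := by
        apply mul_le_mul_of_nonneg_left _ hs
        apply mul_le_mul_of_nonneg_left h3 (by positivity)
      push_cast at h1 ⊢
      nlinarith

/-- The derivative of the expectation polynomial. -/
noncomputable def Gd (t : ℝ) (g : (Fin n → Bool) → ℝ) : ℝ := (bpoly n g).derivative.eval t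

lemma Gd_add (t : ℝ) (g h : (Fin n → Bool) → ℝ) : Gd t (fun y => g y + h y) = Gd t g + Gd t h := by
  simp [Gd, bpoly_add]

lemma bpoly_sub (g h : (Fin n → Bool) → ℝ) : bpoly n (fun y => g y - h y) = bpoly n g - bpoly n h := by
  have e : (fun y => g y - h y) = fun y => g y + (fun y => (-1) * h y) y := by
    funext y; ring
  rw [e, bpoly_add, bpoly_smul, C_neg, C_1]; ring

lemma Gd_sub (t : ℝ) (g h : (Fin n → Bool) → ℝ) : Gd t (fun y => g y - h y) = Gd t g - Gd t h := by
  simp [Gd, bpoly_sub]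

lemma Gd_succ (t : ℝ) (g : (Fin (n + 1) → Bool) → ℝ) :
    Gd t g = Ex t (df g) + (1 + t) / 2 * Gd t (pl g) + (1 - t) / 2 * Gd t (mi g) := by
  rw [pl_fun, mi_fun, Gd_add, Gd_sub]
  simp only [Gd, Ex, bpoly, derivative_add, derivative_mul, derivative_X, eval_add, eval_mul,
    eval_X, eval_one, one_mul]
  ring

/-- Values in `{-1, 1}`. -/
def IsBool (g : (Fin n → Bool) → ℝ) : Prop := ∀ x, g x = 1 ∨ g x = -1

lemma IsBool.pl {g : (Fin (n + 1) → Bool) → ℝ} (h : IsBool g) : IsBool (pl g) := fun _ => h _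
lemma IsBool.mi {g : (Fin (n + 1) → Bool) → ℝ} (h : IsBool g) : IsBool (mi g) := fun _ => h _

lemma IsBool.abs_df_le {g : (Fin (n + 1) → Bool) → ℝ} (h : IsBool g) (y) :
    |df g y| ≤ (df g y) ^ 2 := by
  unfold df Vale.Agent.Lib.P047.pl Vale.Agent.Lib.P047.mi
  rcases h (Fin.cons true y) with h1 | h1 <;> rcases h (Fin.cons false y) with h2 | h2 <;>
    rw [h1, h2] <;> norm_num

/-- The first derivative is bounded by the squared gradient for Boolean functions. -/
theorem abs_Gd_le {t : ℝ} (ht : |t| ≤ 1) : ∀ {n : ℕ} (g : (Fin n → Bool) → ℝ), IsBool g →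
    |Gd t g| ≤ Qd t n g
  | 0, g, _ => by simp [Gd, bpoly, Qd]
  | n + 1, g, h => by
    rw [Gd_succ]
    simp only [Qd]
    have h1 : 0 ≤ (1 + t) / 2 := by linarith [(abs_le.mp ht).1]
    have h2 : 0 ≤ (1 - t) / 2 := by linarith [(abs_le.mp ht).2]
    have h3 := abs_Gd_le ht (Vale.Agent.Lib.P047.pl g) h.pl
    have h4 := abs_Gd_le ht (Vale.Agent.Lib.P047.mi g) h.mi
    have h5 : |Ex t (df g)| ≤ Ex t (fun y => (df g y) ^ 2) := by
      rw [abs_le]
      constructor
      · have := Ex_mono ht (g := fun y => - (df g y) ^ 2) (h := df g) (fun y => by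
          have := h.abs_df_le y
          have h6 := neg_abs_le (df g y)
          linarith)
        rw [Ex_neg] at this
        linarith
      · exact Ex_mono ht (fun y => (le_abs_self _).trans (h.abs_df_le y))
    calc |Ex t (df g) + (1 + t) / 2 * Gd t (Vale.Agent.Lib.P047.pl g)
          + (1 - t) / 2 * Gd t (Vale.Agent.Lib.P047.mi g)|
        ≤ |Ex t (df g)| + |(1 + t) / 2 * Gd t (Vale.Agent.Lib.P047.pl g)|
          + |(1 - t) / 2 * Gd t (Vale.Agent.Lib.P047.mi g)| := abs_add_three _ _ _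
      _ ≤ _ := by
        rw [abs_mul, abs_mul, abs_of_nonneg h1, abs_of_nonneg h2]
        have h6 := mul_le_mul_of_nonneg_left h3 h1
        have h7 := mul_le_mul_of_nonneg_left h4 h2
        linarith

/-- **The differential inequality** for Boolean functions of Fourier degree at most `d`. -/
theorem ode_bound {t : ℝ} (ht : |t| ≤ 1) {g : (Fin n → Bool) → ℝ} (hb : IsBool g) {d : ℕ}
    (hd : DegLE g d) :
    (1 - t ^ 2) * |(bpoly n g).derivative.eval t| ≤ d * (1 - ((bpoly n g).eval t) ^ 2) := by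
  have ht2 : t ^ 2 ≤ 1 := by
    rw [sq_le_one_iff_abs_le_one]; exact ht
  have h1 := abs_Gd_le ht g hb
  have h2 := poincare ht2 g d hd
  have h3 : Vr t g = 1 - ((bpoly n g).eval t) ^ 2 := by
    unfold Vr
    have e : (fun y => (g y) ^ 2) = fun _ => (1 : ℝ) := by
      funext y
      rcases hb y with h | h <;> rw [h] <;> norm_num
    rw [e, Ex_const]; rfl
  rw [h3] at h2
  have hs : 0 ≤ 1 - t ^ 2 := by linarith
  calc (1 - t ^ 2) * |(bpoly n g).derivative.eval t| ≤ (1 - t ^ 2) * Qd t n g :=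
        mul_le_mul_of_nonneg_left h1 hs
    _ ≤ _ := h2

lemma abs_eval_le {t : ℝ} (ht : |t| ≤ 1) {g : (Fin n → Bool) → ℝ} (hb : IsBool g) :
    |(bpoly n g).eval t| ≤ 1 := by
  have h1 : Ex t g ≤ Ex t (fun _ => (1 : ℝ)) := Ex_mono ht (fun y => by
    rcases hb y with h | h <;> rw [h] <;> norm_num)
  have h2 : Ex t (fun _ => (-1 : ℝ)) ≤ Ex t g := Ex_mono ht (fun y => by
    rcases hb y with h | h <;> rw [h] <;> norm_num)
  rw [Ex_const] at h1 h2
  exact abs_le.mpr ⟨h2, h1⟩

/-- In the open interval the expectation of a nonconstant Boolean function stays inside `(-1,1)`: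
if it reaches an endpoint the function is constant. -/
lemma const_of_eval_eq {t : ℝ} (ht : |t| < 1) {g : (Fin n → Bool) → ℝ} (hb : IsBool g)
    (h : |(bpoly n g).eval t| = 1) : ∃ c : ℝ, g = fun _ => c := by
  rcases abs_eq (zero_le_one) |>.mp h with h1 | h1
  · refine ⟨1, ?_⟩
    have h2 := eq_zero_of_Ex_eq_zero ht (fun y => 1 - g y)
      (fun y => by rcases hb y with h | h <;> rw [h] <;> norm_num)
      (by rw [Ex_sub, Ex_const]; unfold Ex; linarith)
    funext y
    have := congrFun h2 y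
    simp at this
    linarith
  · refine ⟨-1, ?_⟩
    have h2 := eq_zero_of_Ex_eq_zero ht (fun y => g y - (-1))
      (fun y => by rcases hb y with h | h <;> rw [h] <;> norm_num)
      (by rw [Ex_sub, Ex_const]; unfold Ex; linarith)
    funext y
    have := congrFun h2 y
    simp at this
    linarith

lemma eval_zero_eq_fourier : ∀ {n : ℕ} (g : (Fin n → Bool) → ℝ),
    (bpoly n g).eval 0 = fourier g ∅
  | 0, g => by
    simp [bpoly, fourier]
    congr 1
  | n + 1, g => by
    simp only [bpoly, eval_add, eval_mul, eval_X, zero_mul, add_zero]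
    rw [eval_zero_eq_fourier, fourier_av]
    simp

/-- The derivative at zero is the sum of the level one Fourier coefficients. -/
theorem derivative_eval_zero_eq_sum : ∀ {n : ℕ} (g : (Fin n → Bool) → ℝ),
    (bpoly n g).derivative.eval 0 = ∑ i, fourier g {i}
  | 0, g => by simp [bpoly]
  | n + 1, g => by
    simp only [bpoly, derivative_add, derivative_mul, derivative_X, eval_add, eval_mul, eval_X,
      eval_one, one_mul, zero_mul, add_zero]
    rw [derivative_eval_zero_eq_sum, eval_zero_eq_fourier, fourier_df, Fin.sum_univ_succ]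
    have h1 : ∀ i : Fin n, fourier (av g) {i} = fourier g {i.succ} := by
      intro i
      rw [fourier_av]
      simp
    simp only [h1]
    have h2 : (insert (0 : Fin (n + 1)) ((∅ : Finset (Fin n)).map (Fin.succEmb n))) = {0} := by simp
    rw [h2]
    ring

end Vale.Agent.Lib.P047
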