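import Mathlib

/-!
M. Riesz interpolation formula at the point 0 for real polynomials of degree at most d:
the derivative at 0 is an explicit signed combination of the values at the points - sin (th k).
-/

namespace Vale.Agent.Lib.P047.Riesz

open Real Finset Polynomial

/-- the nodes `(2k+1)π/(2d)` -/
noncomputable def th (d k : ℕ) : ℝ := (2 * (k : ℝ) + 1) * π / (2 * d)

/-- the weights `1/(4 d sin²(th/2))` -/
noncomputable def wt (d k : ℕ) : ℝ := 1 / (4 * d * sin (th d k / 2) ^ 2)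

variable {d : ℕ}

lemma th_half_pos (hd : 0 < d) (k : ℕ) : 0 < th d k / 2 := by
  have : (0:ℝ) < d := by exact_mod_cast hd
  unfold th; positivity

lemma th_half_lt (hd : 0 < d) {k : ℕ} (hk : k < 2 * d) : th d k / 2 < π := by
  have hd' : (0:ℝ) < d := by exact_mod_cast hd
  have hk' : (k:ℝ) + 1 ≤ 2 * d := by exact_mod_cast hk
  unfold th
  rw [div_div, div_lt_iff₀ (by positivity)]
  nlinarith [pi_pos]

lemma sin_th_half_pos (hd : 0 < d) {k : ℕ} (hk : k < 2 * d) : 0 < sin (th d k / 2) :=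
  sin_pos_of_pos_of_lt_pi (th_half_pos hd k) (th_half_lt hd hk)

lemma wt_pos (hd : 0 < d) {k : ℕ} (hk : k < 2 * d) : 0 < wt d k := by
  have hd' : (0:ℝ) < d := by exact_mod_cast hd
  have := sin_th_half_pos hd hk
  unfold wt; positivity

/-- cosine sums over the nodes vanish -/
lemma sum_cos_eq_zero (hd : 0 < d) {m : ℕ} (hm0 : 0 < m) (hm : m < 2 * d) :
    ∑ k ∈ range (2 * d), cos (m * th d k) = 0 := by
  have hd' : (0:ℝ) < d := by exact_mod_cast hd
  have hm0' : (0:ℝ) < m := by exact_mod_cast hm0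
  have hm' : (m:ℝ) < 2 * d := by exact_mod_cast hm
  have hs : 0 < sin (m * π / (2 * d)) := by
    apply sin_pos_of_pos_of_lt_pi
    · positivity
    · rw [div_lt_iff₀ (by positivity)]; nlinarith [pi_pos]
  have key : ∀ k ∈ range (2 * d), 2 * sin (m * π / (2 * d)) * cos (m * th d k)
      = sin (m * (((k + 1 : ℕ) : ℝ) * π / d)) - sin (m * ((k : ℝ) * π / d)) := by
    intro k _
    have e1 : m * (((k + 1 : ℕ) : ℝ) * π / d) = m * th d k + m * π / (2 * d) := by
      unfold th; push_cast; field_simp; ring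
    have e2 : m * ((k : ℝ) * π / d) = m * th d k - m * π / (2 * d) := by
      unfold th; field_simp; ring
    rw [e1, e2, sin_add, sin_sub]; ring
  have h2 : 2 * sin (m * π / (2 * d)) * ∑ k ∈ range (2 * d), cos (m * th d k) = 0 := by
    rw [mul_sum, sum_congr rfl key,
      sum_range_sub (fun k : ℕ => sin (m * ((k : ℝ) * π / d)))]
    have e3 : (m:ℝ) * (((2 * d : ℕ) : ℝ) * π / d) = ((2 * m : ℕ) : ℝ) * π := by
      push_cast; field_simp
    rw [e3, sin_nat_mul_pi]; simp
  have h3 : (2 * sin (m * π / (2 * d))) ≠ 0 := by positivity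
  exact (mul_eq_zero.mp h2).resolve_left h3

lemma sin_d_th (hd : 0 < d) (k : ℕ) : sin (d * th d k) = (-1) ^ k := by
  have hd' : (0:ℝ) < d := by exact_mod_cast hd
  have e : (d:ℝ) * th d k = π / 2 + k * π := by unfold th; field_simp; ring
  rw [e, sin_add, sin_pi_div_two, cos_pi_div_two, cos_nat_mul_pi, sin_nat_mul_pi]; ring

lemma cos_two_d_th (hd : 0 < d) (k : ℕ) : cos (((2 * d : ℕ) : ℝ) * th d k) = -1 := by
  have hd' : (0:ℝ) < d := by exact_mod_cast hd
  have e : ((2 * d : ℕ) : ℝ) * th d k = π + ((2 * k : ℕ) : ℝ) * π := by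
    unfold th; push_cast; field_simp; ring
  rw [e, cos_add, cos_pi, sin_pi, cos_nat_mul_pi]; simp [pow_mul]

/-- the second difference of sines, multiplied by the weight -/
lemma wt_mul_second_diff_sin (hd : 0 < d) {k : ℕ} (hk : k < 2 * d) (j : ℕ) :
    wt d k * (sin (((j + 2 : ℕ) : ℝ) * th d k) + sin ((j : ℝ) * th d k)
        - 2 * sin (((j + 1 : ℕ) : ℝ) * th d k))
      = -(1 / d) * sin (((j + 1 : ℕ) : ℝ) * th d k) := by
  have hd' : (0:ℝ) < d := by exact_mod_cast hd
  have hs := sin_th_half_pos hd hk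
  set θ := th d k with hθ
  have e1 : ((j + 2 : ℕ) : ℝ) * θ = ((j + 1 : ℕ) : ℝ) * θ + θ := by push_cast; ring
  have e2 : (j : ℝ) * θ = ((j + 1 : ℕ) : ℝ) * θ - θ := by push_cast; ring
  have e3 : cos θ = 1 - 2 * sin (θ / 2) ^ 2 := by
    have := cos_sq' (θ / 2)
    have h4 := cos_two_mul (θ / 2)
    rw [show 2 * (θ / 2) = θ by ring] at h4
    rw [h4, this]; ring
  rw [e1, e2, sin_add, sin_sub, e3]
  unfold wt
  rw [← hθ]
  field_simp
  ring

/-- the second difference of cosines, multiplied by the weight -/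
lemma wt_mul_second_diff_cos (hd : 0 < d) {k : ℕ} (hk : k < 2 * d) (j : ℕ) :
    wt d k * (cos (((j + 2 : ℕ) : ℝ) * th d k) + cos ((j : ℝ) * th d k)
        - 2 * cos (((j + 1 : ℕ) : ℝ) * th d k))
      = -(1 / d) * cos (((j + 1 : ℕ) : ℝ) * th d k) := by
  have hd' : (0:ℝ) < d := by exact_mod_cast hd
  have hs := sin_th_half_pos hd hk
  set θ := th d k with hθ
  have e1 : ((j + 2 : ℕ) : ℝ) * θ = ((j + 1 : ℕ) : ℝ) * θ + θ := by push_cast; ring
  have e2 : (j : ℝ) * θ = ((j + 1 : ℕ) : ℝ) * θ - θ := by push_cast; ring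
  have e3 : cos θ = 1 - 2 * sin (θ / 2) ^ 2 := by
    have := cos_sq' (θ / 2)
    have h4 := cos_two_mul (θ / 2)
    rw [show 2 * (θ / 2) = θ by ring] at h4
    rw [h4, this]; ring
  rw [e1, e2, cos_add, cos_sub, e3]
  unfold wt
  rw [← hθ]
  field_simp
  ring

/-- `E j = ∑ a_k cos (j θ_k)` -/
noncomputable def E (d j : ℕ) : ℝ := ∑ k ∈ range (2 * d), wt d k * cos ((j : ℝ) * th d k)

/-- `B j = ∑ (-1)^k a_k sin (j θ_k)` -/
noncomputable def B (d j : ℕ) : ℝ :=
  ∑ k ∈ range (2 * d), (-1) ^ k * wt d k * sin ((j : ℝ) * th d k)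

/-- `A j = ∑ (-1)^k a_k cos (j θ_k)` -/
noncomputable def A (d j : ℕ) : ℝ :=
  ∑ k ∈ range (2 * d), (-1) ^ k * wt d k * cos ((j : ℝ) * th d k)

lemma E_rec (hd : 0 < d) {j : ℕ} (hj : j + 1 < 2 * d) :
    E d (j + 2) + E d j - 2 * E d (j + 1) = 0 := by
  have h := sum_cos_eq_zero hd (Nat.succ_pos j) hj
  have : E d (j + 2) + E d j - 2 * E d (j + 1)
      = -(1 / d) * ∑ k ∈ range (2 * d), cos (((j + 1 : ℕ) : ℝ) * th d k) := by
    unfold E
    rw [mul_sum, mul_sum, ← sum_add_distrib, ← sum_sub_distrib]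
    apply sum_congr rfl
    intro k hk
    rw [← wt_mul_second_diff_cos hd (mem_range.mp hk) j]; ring
  rw [this, h]; ring

lemma E_one (hd : 0 < d) : E d 1 = E d 0 - 1 := by
  have hd' : (0:ℝ) < d := by exact_mod_cast hd
  have : 2 * E d 1 - 2 * E d 0 = -2 := by
    have h1 : ∀ k ∈ range (2 * d), 2 * (wt d k * cos (((1 : ℕ) : ℝ) * th d k))
        - 2 * (wt d k * cos (((0 : ℕ) : ℝ) * th d k)) = -(1 / d) := by
      intro k hk
      have hk' := mem_range.mp hk
      have h2 := wt_mul_second_diff_cos hd hk' 0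
      have hs := sin_th_half_pos hd hk'
      simp only [Nat.cast_zero, zero_mul, cos_zero, Nat.cast_one, one_mul, zero_add] at h2 ⊢
      have e3 : cos (th d k) = 1 - 2 * sin (th d k / 2) ^ 2 := by
        have := cos_sq' (th d k / 2)
        have h4 := cos_two_mul (th d k / 2)
        rw [show 2 * (th d k / 2) = th d k by ring] at h4
        rw [h4, this]; ring
      rw [e3]
      unfold wt
      field_simp
      ring
    unfold E
    rw [mul_sum, mul_sum, ← sum_sub_distrib, sum_congr rfl h1]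
    simp only [sum_const, card_range, nsmul_eq_mul]
    push_cast
    field_simp
  linarith

lemma E_eq (hd : 0 < d) {j : ℕ} (hj : j ≤ 2 * d) : E d j = E d 0 - j := by
  induction j using Nat.strong_induction_on with
  | _ j ih =>
    match j, hj with
    | 0, _ => simp
    | 1, _ => simpa using E_one hd
    | j + 2, hj =>
      have h1 := ih j (by omega) (by omega)
      have h2 := ih (j + 1) (by omega) (by omega)
      have h3 := E_rec hd (j := j) (by omega)
      push_cast at h2 ⊢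
      linarith

lemma E_two_d (hd : 0 < d) : E d (2 * d) = - E d 0 := by
  unfold E
  rw [← sum_neg_distrib]
  apply sum_congr rfl
  intro k _
  rw [cos_two_d_th hd k]; simp

/-- The sum of the weights is `d`. -/
lemma sum_wt (hd : 0 < d) : ∑ k ∈ range (2 * d), wt d k = d := by
  have h1 := E_eq hd (j := 2 * d) le_rfl
  have h2 := E_two_d hd
  have h3 : E d 0 = ∑ k ∈ range (2 * d), wt d k := by simp [E]
  push_cast at h1
  rw [← h3]
  linarith

lemma B_rec (hd : 0 < d) {j : ℕ} (hj : j + 1 < d) :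
    B d (j + 2) + B d j - 2 * B d (j + 1) = 0 := by
  have hd' : (0:ℝ) < d := by exact_mod_cast hd
  have h1 := sum_cos_eq_zero hd (m := d - (j + 1)) (by omega) (by omega)
  have h2 := sum_cos_eq_zero hd (m := d + (j + 1)) (by omega) (by omega)
  have h3 : ∑ k ∈ range (2 * d), (-1 : ℝ) ^ k * sin (((j + 1 : ℕ) : ℝ) * th d k) = 0 := by
    have : ∀ k ∈ range (2 * d), (-1 : ℝ) ^ k * sin (((j + 1 : ℕ) : ℝ) * th d k)
        = (cos (((d - (j + 1) : ℕ) : ℝ) * th d k) - cos (((d + (j + 1) : ℕ) : ℝ) * th d k)) / 2 := by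
      intro k _
      rw [← sin_d_th hd k]
      have hc : ((d - (j + 1) : ℕ) : ℝ) = (d : ℝ) - ((j + 1 : ℕ) : ℝ) := by
        rw [Nat.cast_sub (by omega)]
      have e1 : ((d - (j + 1) : ℕ) : ℝ) * th d k
          = (d : ℝ) * th d k - ((j + 1 : ℕ) : ℝ) * th d k := by rw [hc]; ring
      have e2 : ((d + (j + 1) : ℕ) : ℝ) * th d k
          = (d : ℝ) * th d k + ((j + 1 : ℕ) : ℝ) * th d k := by
        rw [Nat.cast_add]; ring
      rw [e1, e2, cos_sub, cos_add]; ring
    rw [sum_congr rfl this, ← sum_div, sum_sub_distrib, h1, h2]; simp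
  have : B d (j + 2) + B d j - 2 * B d (j + 1)
      = -(1 / d) * ∑ k ∈ range (2 * d), (-1 : ℝ) ^ k * sin (((j + 1 : ℕ) : ℝ) * th d k) := by
    unfold B
    rw [mul_sum, mul_sum, ← sum_add_distrib, ← sum_sub_distrib]
    apply sum_congr rfl
    intro k hk
    have := wt_mul_second_diff_sin hd (mem_range.mp hk) j
    calc _ = (-1 : ℝ) ^ k * (wt d k * (sin (((j + 2 : ℕ) : ℝ) * th d k) + sin ((j : ℝ) * th d k)
        - 2 * sin (((j + 1 : ℕ) : ℝ) * th d k))) := by ring
      _ = _ := by rw [this]; ring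
  rw [this, h3]; ring

lemma B_zero : B d 0 = 0 := by simp [B]

lemma B_eq (hd : 0 < d) {j : ℕ} (hj : j ≤ d) : B d j = j * B d 1 := by
  induction j using Nat.strong_induction_on with
  | _ j ih =>
    match j, hj with
    | 0, _ => simp [B_zero]
    | 1, _ => simp
    | j + 2, hj =>
      have h1 := ih j (by omega) (by omega)
      have h2 := ih (j + 1) (by omega) (by omega)
      have h3 := B_rec hd (j := j) (by omega)
      push_cast at h2 ⊢
      linarith

lemma B_d (hd : 0 < d) : B d d = d := by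
  rw [← sum_wt hd]
  unfold B
  apply sum_congr rfl
  intro k _
  rw [sin_d_th hd k]
  have : ((-1 : ℝ) ^ k) * (-1) ^ k = 1 := by
    rw [← mul_pow]; simp
  calc _ = ((-1 : ℝ) ^ k * (-1) ^ k) * wt d k := by ring
    _ = _ := by rw [this]; ring

/-- `B j = j` for `j ≤ d`. -/
lemma B_eq_self (hd : 0 < d) {j : ℕ} (hj : j ≤ d) : B d j = j := by
  have hd' : (0:ℝ) < d := by exact_mod_cast hd
  have h1 := B_eq hd (j := d) le_rfl
  rw [B_d hd] at h1
  have h2 : B d 1 = 1 := by
    have : (d:ℝ) * (B d 1 - 1) = 0 := by linarith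
    have := (mul_eq_zero.mp this).resolve_left hd'.ne'
    linarith
  rw [B_eq hd hj, h2, mul_one]

lemma th_reflect (hd : 0 < d) {k : ℕ} (hk : k < 2 * d) :
    th d (2 * d - 1 - k) = 2 * π - th d k := by
  have hd' : (0:ℝ) < d := by exact_mod_cast hd
  have hc : ((2 * d - 1 - k : ℕ) : ℝ) = 2 * d - 1 - k := by
    rw [Nat.cast_sub (by omega), Nat.cast_sub (by omega)]; push_cast; ring
  unfold th
  rw [hc]
  field_simp
  ring

lemma wt_reflect (hd : 0 < d) {k : ℕ} (hk : k < 2 * d) :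
    wt d (2 * d - 1 - k) = wt d k := by
  unfold wt
  rw [th_reflect hd hk]
  have : (2 * π - th d k) / 2 = π - th d k / 2 := by ring
  rw [this, sin_pi_sub]

lemma neg_one_pow_reflect (hd : 0 < d) {k : ℕ} (hk : k < 2 * d) :
    (-1 : ℝ) ^ (2 * d - 1 - k) = - (-1) ^ k := by
  have h : (-1 : ℝ) ^ (2 * d - 1 - k) * (-1) ^ k = -1 := by
    rw [← pow_add, show 2 * d - 1 - k + k = 2 * d - 1 by omega]
    have : (2 * d - 1) = 2 * (d - 1) + 1 := by omega
    rw [this, pow_succ, pow_mul]; simp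
  have h2 : ((-1 : ℝ) ^ k) * (-1) ^ k = 1 := by rw [← mul_pow]; simp
  calc (-1 : ℝ) ^ (2 * d - 1 - k) = (-1 : ℝ) ^ (2 * d - 1 - k) * ((-1) ^ k * (-1) ^ k) := by
        rw [h2, mul_one]
    _ = ((-1 : ℝ) ^ (2 * d - 1 - k) * (-1) ^ k) * (-1) ^ k := by ring
    _ = _ := by rw [h]; ring

lemma A_eq_zero (hd : 0 < d) (j : ℕ) : A d j = 0 := by
  have h : A d j = - A d j := by
    unfold A
    conv_lhs => rw [← sum_range_reflect]
    rw [← sum_neg_distrib]
    apply sum_congr rfl
    intro k hk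
    have hk' := mem_range.mp hk
    rw [neg_one_pow_reflect hd hk', wt_reflect hd hk', th_reflect hd hk']
    have : (j : ℝ) * (2 * π - th d k) = (j : ℝ) * (2 * π) - (j : ℝ) * th d k := by ring
    rw [this, cos_nat_mul_two_pi_sub]
    ring
  linarith

/-- the interpolation identity on `cos (j θ)`. -/
lemma functional_cos (hd : 0 < d) {j : ℕ} (hj : j ≤ d) :
    ∑ k ∈ range (2 * d), (-1) ^ k * wt d k * cos ((j : ℝ) * (π / 2 + th d k))
      = - (j * sin (j * (π / 2))) := by
  have : ∀ k ∈ range (2 * d), (-1) ^ k * wt d k * cos ((j : ℝ) * (π / 2 + th d k))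
      = cos (j * (π / 2)) * ((-1) ^ k * wt d k * cos ((j : ℝ) * th d k))
        - sin (j * (π / 2)) * ((-1) ^ k * wt d k * sin ((j : ℝ) * th d k)) := by
    intro k _
    rw [mul_add, cos_add]; ring
  rw [sum_congr rfl this, sum_sub_distrib, ← mul_sum, ← mul_sum]
  have h1 : ∑ k ∈ range (2 * d), (-1) ^ k * wt d k * cos ((j : ℝ) * th d k) = 0 := A_eq_zero hd j
  have h2 : ∑ k ∈ range (2 * d), (-1) ^ k * wt d k * sin ((j : ℝ) * th d k) = j := B_eq_self hd hj
  rw [h1, h2]; ring

/-- the statement for one polynomial -/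
def St (d : ℕ) (p : ℝ[X]) : Prop :=
  ∑ k ∈ range (2 * d), (-1) ^ k * wt d k * p.eval (cos (π / 2 + th d k)) = - p.derivative.eval 0

lemma St_T (hd : 0 < d) {j : ℕ} (hj : j ≤ d) : St d (Chebyshev.T ℝ (j : ℤ)) := by
  unfold St
  have h1 : ∀ x : ℝ, (Chebyshev.T ℝ (j : ℤ)).eval (cos x) = cos ((j : ℝ) * x) := by
    intro x
    have := Chebyshev.T_real_cos x (j : ℤ)
    simpa using this
  simp_rw [h1]
  rw [functional_cos hd hj]
  -- derivative comparison at π/2
  have h2 : HasDerivAt (fun x : ℝ => (Chebyshev.T ℝ (j : ℤ)).eval (cos x))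
      ((Chebyshev.T ℝ (j : ℤ)).derivative.eval (cos (π / 2)) * (- sin (π / 2))) (π / 2) :=
    ((Chebyshev.T ℝ (j : ℤ)).hasDerivAt (cos (π / 2))).comp (π / 2) (hasDerivAt_cos (π / 2))
  have h3 : HasDerivAt (fun x : ℝ => cos ((j : ℝ) * x)) (- sin ((j : ℝ) * (π / 2)) * (j : ℝ)) (π / 2) := by
    have h4 : HasDerivAt (fun x : ℝ => (j : ℝ) * x) (j : ℝ) (π / 2) := by
      simpa using (hasDerivAt_id (π / 2)).const_mul (j : ℝ)
    exact (hasDerivAt_cos _).comp (π / 2) h4
  have h5 : (fun x : ℝ => (Chebyshev.T ℝ (j : ℤ)).eval (cos x)) = fun x : ℝ => cos ((j : ℝ) * x) :=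
    funext h1
  rw [h5] at h2
  have h6 := h2.unique h3
  simp only [cos_pi_div_two, sin_pi_div_two] at h6
  linarith

lemma St_add {p q : ℝ[X]} (hp : St d p) (hq : St d q) : St d (p + q) := by
  unfold St at *
  simp only [eval_add, derivative_add, mul_add]
  rw [sum_add_distrib, hp, hq]; ring

lemma St_C_mul {p : ℝ[X]} (c : ℝ) (hp : St d p) : St d (C c * p) := by
  unfold St at *
  simp only [eval_mul, eval_C, derivative_mul, derivative_C, zero_mul, zero_add]
  have : ∀ k ∈ range (2 * d), (-1) ^ k * wt d k * (c * p.eval (cos (π / 2 + th d k)))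
      = c * ((-1) ^ k * wt d k * p.eval (cos (π / 2 + th d k))) := by
    intro k _; ring
  rw [sum_congr rfl this, ← mul_sum, hp]
  ring

lemma St_of_natDegree_le (hd : 0 < d) : ∀ (m : ℕ), m ≤ d → ∀ p : ℝ[X], p.natDegree ≤ m → St d p := by
  intro m
  induction m with
  | zero =>
    intro _ p hp
    have hp0 := Polynomial.eq_C_of_natDegree_le_zero hp
    rw [hp0]
    have := St_C_mul (d := d) (p.coeff 0) (St_T hd (j := 0) (Nat.zero_le d))
    simpa using this
  | succ m ih =>
    intro hm p hp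
    have hT : St d (Chebyshev.T ℝ ((m + 1 : ℕ) : ℤ)) := St_T hd hm
    have hdeg : (Chebyshev.T ℝ ((m + 1 : ℕ) : ℤ)).natDegree = m + 1 := by
      rw [Chebyshev.natDegree_T, Int.natAbs_natCast]
    have hlc : (Chebyshev.T ℝ ((m + 1 : ℕ) : ℤ)).coeff (m + 1) = 2 ^ m := by
      have h := Chebyshev.leadingCoeff_T (R := ℝ) ((m + 1 : ℕ) : ℤ)
      rw [Polynomial.leadingCoeff, hdeg, Int.natAbs_natCast] at h
      rw [h]
      simp
    set c : ℝ := p.coeff (m + 1) / 2 ^ m with hc
    have hq : (p - C c * Chebyshev.T ℝ ((m + 1 : ℕ) : ℤ)).natDegree ≤ m := by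
      rw [Polynomial.natDegree_le_iff_coeff_eq_zero]
      intro N hN
      rw [coeff_sub, coeff_C_mul]
      rcases Nat.lt_or_ge (m + 1) N with h | h
      · rw [coeff_eq_zero_of_natDegree_lt (lt_of_le_of_lt hp h),
          coeff_eq_zero_of_natDegree_lt (by rw [hdeg]; exact h)]
        simp
      · have : N = m + 1 := by omega
        rw [this, hlc, hc]
        field_simp
        ring
    have h2 := ih (by omega) _ hq
    have h3 := St_add h2 (St_C_mul c hT)
    simpa using h3

/-- **M. Riesz interpolation formula at the point 0.** -/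
theorem derivative_eval_zero_eq (hd : 0 < d) (p : ℝ[X]) (hp : p.natDegree ≤ d) :
    p.derivative.eval 0 = - ∑ k ∈ range (2 * d), (-1) ^ k * wt d k * p.eval (- sin (th d k)) := by
  have h := St_of_natDegree_le hd d le_rfl p hp
  unfold St at h
  have e : ∀ k, cos (π / 2 + th d k) = - sin (th d k) := by
    intro k; rw [add_comm, cos_add_pi_div_two]
  simp_rw [e] at h
  rw [h]; ring

/-- The consequence used later: only the two main nodes are kept. -/
theorem riesz_bound (hd : 0 < d) (p : ℝ[X]) (hp : p.natDegree ≤ d)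
    (hb : ∀ t ∈ Set.Icc (-1 : ℝ) 1, |p.eval t| ≤ 1) :
    p.derivative.eval 0 ≤ d - 2 * wt d 0
      + wt d 0 * (p.eval (sin (π / (2 * d))) - p.eval (- sin (π / (2 * d)))) := by
  obtain ⟨N, hN⟩ : ∃ N, 2 * d = N + 2 := ⟨2 * d - 2, by omega⟩
  have hlast : 2 * d - 1 - 0 = N + 1 := by omega
  have ewt : wt d (N + 1) = wt d 0 := by
    have := wt_reflect hd (k := 0) (by omega)
    rwa [hlast] at this
  have eth0 : th d 0 = π / (2 * d) := by unfold th; simp
  have ethl : sin (th d (N + 1)) = - sin (π / (2 * d)) := by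
    have := th_reflect hd (k := 0) (by omega)
    rw [hlast] at this
    rw [this, eth0]
    rw [sin_two_pi_sub]
  have hpow : (-1 : ℝ) ^ (N + 1) = -1 := by
    have := neg_one_pow_reflect hd (k := 0) (by omega)
    rw [hlast] at this
    simpa using this
  have hsum : ∑ k ∈ range (2 * d), wt d k = d := sum_wt hd
  rw [hN, sum_range_succ, sum_range_succ'] at hsum
  rw [derivative_eval_zero_eq hd p hp, hN, sum_range_succ, sum_range_succ']
  rw [hpow, ethl, ewt, eth0]
  rw [ewt] at hsum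
  simp only [pow_zero, one_mul, neg_neg, neg_mul]
  have hrest : ∀ k ∈ range N, -((-1 : ℝ) ^ (k + 1) * wt d (k + 1) * p.eval (- sin (th d (k + 1))))
      ≤ wt d (k + 1) := by
    intro k hk
    have hk' : k + 1 < 2 * d := by have := mem_range.mp hk; omega
    have hw := wt_pos hd hk'
    have h1 : |p.eval (- sin (th d (k + 1)))| ≤ 1 := by
      apply hb
      constructor
      · linarith [sin_le_one (th d (k + 1))]
      · linarith [neg_one_le_sin (th d (k + 1))]
    have h2 : |(-1 : ℝ) ^ (k + 1)| = 1 := by simp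
    have h3 : |(-1 : ℝ) ^ (k + 1) * wt d (k + 1) * p.eval (- sin (th d (k + 1)))| ≤ wt d (k + 1) := by
      rw [abs_mul, abs_mul, h2, abs_of_pos hw, one_mul]
      calc wt d (k + 1) * |p.eval (- sin (th d (k + 1)))| ≤ wt d (k + 1) * 1 :=
            mul_le_mul_of_nonneg_left h1 hw.le
        _ = wt d (k + 1) := mul_one _
    have := neg_abs_le ((-1 : ℝ) ^ (k + 1) * wt d (k + 1) * p.eval (- sin (th d (k + 1))))
    linarith
  have h4 := sum_le_sum hrest
  rw [sum_neg_distrib] at h4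
  have h5 : ∑ k ∈ range N, (-1 : ℝ) ^ (k + 1) * wt d (k + 1) * p.eval (- sin (th d (k + 1)))
      ≥ - ∑ k ∈ range N, wt d (k + 1) := by linarith
  nlinarith

end Vale.Agent.Lib.P047.Riesz
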