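import Mathlib
import Vale.Agent.Lib.P047.Defs
import Vale.Agent.Lib.P047.Riesz
import Vale.Agent.Lib.P047.Cube

/-!
Integration of the differential inequality and the numerical bound.
-/

namespace Vale.Agent.Lib.P047

open Polynomial Real

lemma log_odds_antitone (F : ℝ[X]) (d : ℕ)
    (hF : ∀ t ∈ Set.Ioo (-1 : ℝ) 1, |F.eval t| < 1)
    (hode : ∀ t ∈ Set.Ioo (-1 : ℝ) 1, (1 - t ^ 2) * |F.derivative.eval t| ≤ d * (1 - (F.eval t) ^ 2)) :
    AntitoneOn (fun t => log (1 + F.eval t) - log (1 - F.eval t)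
      - d * (log (1 + t) - log (1 - t))) (Set.Ioo (-1 : ℝ) 1) := by
  have hder : ∀ t ∈ Set.Ioo (-1 : ℝ) 1, HasDerivAt (fun t => log (1 + F.eval t) - log (1 - F.eval t)
      - d * (log (1 + t) - log (1 - t)))
      (F.derivative.eval t / (1 + F.eval t) - (- F.derivative.eval t) / (1 - F.eval t)
        - d * (1 / (1 + t) - (-1) / (1 - t))) t := by
    intro t ht
    have h1 := abs_lt.mp (hF t ht)
    have hF1 : HasDerivAt (fun t => 1 + F.eval t) (F.derivative.eval t) t := by
      simpa using (F.hasDerivAt t).const_add 1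
    have hF2 : HasDerivAt (fun t => 1 - F.eval t) (- F.derivative.eval t) t := by
      simpa using (F.hasDerivAt t).const_sub 1
    have ht1 : HasDerivAt (fun t : ℝ => 1 + t) 1 t := by
      simpa using (hasDerivAt_id t).const_add 1
    have ht2 : HasDerivAt (fun t : ℝ => 1 - t) (-1) t := by
      simpa using (hasDerivAt_id t).const_sub 1
    have a1 : 1 + F.eval t ≠ 0 := by linarith [h1.1] |> ne_of_gt
    have a2 : 1 - F.eval t ≠ 0 := by linarith [h1.2] |> ne_of_gt
    have a3 : 1 + t ≠ 0 := by linarith [ht.1] |> ne_of_gt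
    have a4 : 1 - t ≠ 0 := by linarith [ht.2] |> ne_of_gt
    exact ((hF1.log a1).sub (hF2.log a2)).sub (((ht1.log a3).sub (ht2.log a4)).const_mul _)
  apply antitoneOn_of_deriv_nonpos (convex_Ioo _ _)
  · intro t ht
    exact (hder t ht).continuousAt.continuousWithinAt
  · intro t ht
    rw [interior_Ioo] at ht
    exact (hder t ht).differentiableAt.differentiableWithinAt
  · intro t ht
    rw [interior_Ioo] at ht
    rw [(hder t ht).deriv]
    have h1 := abs_lt.mp (hF t ht)
    have h2 := hode t ht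
    have ht1 : 0 < 1 + t := by linarith [ht.1]
    have ht2 : 0 < 1 - t := by linarith [ht.2]
    have hF1 : 0 < 1 + F.eval t := by linarith [h1.1]
    have hF2 : 0 < 1 - F.eval t := by linarith [h1.2]
    set u := F.eval t
    set v := F.derivative.eval t
    have h3 : (1 - t ^ 2) * v ≤ d * (1 - u ^ 2) := by
      have : (1 - t ^ 2) * v ≤ (1 - t ^ 2) * |v| :=
        mul_le_mul_of_nonneg_left (le_abs_self v) (by nlinarith)
      linarith
    have e1 : v / (1 + u) - (-v) / (1 - u) = 2 * v / ((1 + u) * (1 - u)) := by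
      field_simp; ring
    have e2 : (d : ℝ) * (1 / (1 + t) - (-1) / (1 - t)) = 2 * d / ((1 + t) * (1 - t)) := by
      field_simp; ring
    rw [e1, e2, sub_nonpos, div_le_div_iff₀ (by positivity) (by positivity)]
    nlinarith

/-- Integrated form of the differential inequality. -/
theorem sub_le_of_ode (F : ℝ[X]) (d : ℕ)
    (hF : ∀ t ∈ Set.Ioo (-1 : ℝ) 1, |F.eval t| < 1)
    (hode : ∀ t ∈ Set.Ioo (-1 : ℝ) 1, (1 - t ^ 2) * |F.derivative.eval t| ≤ d * (1 - (F.eval t) ^ 2))
    {s : ℝ} (hs0 : 0 ≤ s) (hs1 : s < 1) :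
    F.eval s - F.eval (-s) ≤ 2 * (((1 + s) / (1 - s)) ^ d - 1) / (((1 + s) / (1 - s)) ^ d + 1) := by
  have hanti := log_odds_antitone F d hF hode
  have m0 : (0 : ℝ) ∈ Set.Ioo (-1 : ℝ) 1 := by constructor <;> norm_num
  have ms : s ∈ Set.Ioo (-1 : ℝ) 1 := ⟨by linarith, hs1⟩
  have mn : -s ∈ Set.Ioo (-1 : ℝ) 1 := ⟨by linarith, by linarith⟩
  have h1 := hanti m0 ms hs0
  have h2 := hanti mn m0 (by linarith)
  simp only [add_zero, sub_zero, log_one, mul_zero] at h1 h2
  have hs_bd := abs_lt.mp (hF s ms)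
  have hn_bd := abs_lt.mp (hF (-s) mn)
  have h0_bd := abs_lt.mp (hF 0 m0)
  set a := F.eval s
  set b := F.eval (-s)
  set c := F.eval 0
  have a1 : 0 < 1 + a := by linarith [hs_bd.1]
  have a2 : 0 < 1 - a := by linarith [hs_bd.2]
  have b1 : 0 < 1 + b := by linarith [hn_bd.1]
  have b2 : 0 < 1 - b := by linarith [hn_bd.2]
  have c1 : 0 < 1 + c := by linarith [h0_bd.1]
  have c2 : 0 < 1 - c := by linarith [h0_bd.2]
  have s1 : 0 < 1 + s := by linarith
  have s2 : 0 < 1 - s := by linarith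
  have hr : 1 ≤ (1 + s) / (1 - s) := by
    rw [le_div_iff₀ s2]; linarith
  set K := ((1 + s) / (1 - s)) ^ d with hK
  have hK1 : 1 ≤ K := one_le_pow₀ hr
  have hKpos : 0 < K := by linarith
  have hlogK : log K = d * (log (1 + s) - log (1 - s)) := by
    rw [hK, log_pow, log_div s1.ne' s2.ne']
  set P := (1 + c) / (1 - c) with hP
  have hPpos : 0 < P := div_pos c1 c2
  have hlogP : log P = log (1 + c) - log (1 - c) := log_div c1.ne' c2.ne'
  -- first consequence
  have h3 : (1 + a) / (1 - a) ≤ P * K := by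
    rw [← log_le_log_iff (div_pos a1 a2) (mul_pos hPpos hKpos),
      log_mul hPpos.ne' hKpos.ne', log_div a1.ne' a2.ne', hlogP, hlogK]
    linarith
  have h4 : P ≤ K * ((1 + b) / (1 - b)) := by
    rw [← log_le_log_iff hPpos (mul_pos hKpos (div_pos b1 b2)),
      log_mul hKpos.ne' (div_pos b1 b2).ne', log_div b1.ne' b2.ne', hlogP, hlogK]
    have e' : log (1 - -s) = log (1 + s) := by rw [sub_neg_eq_add]
    have e2 : log (1 + -s) = log (1 - s) := by rw [sub_eq_add_neg]
    rw [e2, e'] at h2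
    linarith
  have h5 : a ≤ (P * K - 1) / (P * K + 1) := by
    rw [div_le_iff₀ a2] at h3
    rw [le_div_iff₀ (by positivity)]
    nlinarith
  have h6 : (P - K) / (P + K) ≤ b := by
    have : P * (1 - b) ≤ K * (1 + b) := by
      have h7 : K * ((1 + b) / (1 - b)) = K * (1 + b) / (1 - b) := by ring
      rw [h7, le_div_iff₀ b2] at h4
      exact h4
    rw [div_le_iff₀ (by positivity)]
    nlinarith
  have h7 : (P * K - 1) / (P * K + 1) - (P - K) / (P + K) ≤ 2 * (K - 1) / (K + 1) := by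
    have p1 : 0 < P * K + 1 := by positivity
    have p2 : 0 < P + K := by positivity
    have p3 : 0 < K + 1 := by positivity
    rw [div_sub_div _ _ p1.ne' p2.ne', div_le_div_iff₀ (mul_pos p1 p2) p3]
    have h8 : 0 ≤ (K - 1) * (K * (P - 1) ^ 2) :=
      mul_nonneg (by linarith) (mul_nonneg hKpos.le (sq_nonneg _))
    nlinarith
  linarith

/-- The numerical bound on the odds ratio. -/
lemma K_le (d : ℕ) (hd : 2 ≤ d) :
    ((1 + sin (π / (2 * d))) / (1 - sin (π / (2 * d)))) ^ d ≤ 39 := by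
  have hd0 : (0 : ℝ) < d := by positivity
  have hpi1 := pi_gt_d4
  have hpi2 := pi_lt_d4
  set s := sin (π / (2 * d)) with hs
  have hx0 : 0 ≤ π / (2 * d) := by positivity
  have hsx : s ≤ π / (2 * d) := sin_le hx0
  have hs0 : 0 ≤ s := by
    apply sin_nonneg_of_nonneg_of_le_pi hx0
    rw [div_le_iff₀ (by positivity)]
    have : (2:ℝ) ≤ d := by exact_mod_cast hd
    nlinarith
  -- the case analysis on d
  rcases (by omega : d = 2 ∨ d = 3 ∨ d = 4 ∨ 5 ≤ d) with rfl | rfl | rfl | h5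
  · have e : s = √2 / 2 := by
      rw [hs, show π / (2 * ((2 : ℕ) : ℝ)) = π / 4 by push_cast; ring, sin_pi_div_four]
    rw [e]
    have hr : √2 * √2 = 2 := mul_self_sqrt (by norm_num)
    have hr1 : √2 ≤ 1.415 := by
      rw [sqrt_le_left (by norm_num)]; norm_num
    have hr0 : 0 ≤ √2 := sqrt_nonneg _
    have e2 : (1 + √2 / 2) / (1 - √2 / 2) = 3 + 2 * √2 := by
      have : 1 - √2 / 2 ≠ 0 := by nlinarith
      rw [div_eq_iff this]
      linear_combination hr
    rw [e2]
    nlinarith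
  · have e : s = 1 / 2 := by
      rw [hs, show π / (2 * ((3 : ℕ) : ℝ)) = π / 6 by push_cast; ring, sin_pi_div_six]
    rw [e]
    norm_num
  · push_cast at hsx
    have h1 : s ≤ 0.3928 := by
      have : π / (2 * 4) ≤ 0.3928 := by
        rw [div_le_iff₀ (by norm_num)]; linarith
      linarith
    have h2 : (1 + s) / (1 - s) ≤ 2.3 := by
      rw [div_le_iff₀ (by linarith)]; linarith
    have h3 : 0 ≤ (1 + s) / (1 - s) := by
      apply div_nonneg <;> linarith
    calc ((1 + s) / (1 - s)) ^ 4 ≤ 2.3 ^ 4 := pow_le_pow_left₀ h3 h2 4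
      _ ≤ 39 := by norm_num
  · have hd5 : (5 : ℝ) ≤ d := by exact_mod_cast h5
    have hs1 : s ≤ 0.3142 := by
      have : π / (2 * d) ≤ 0.3142 := by
        rw [div_le_iff₀ (by positivity)]
        nlinarith
      linarith
    have hs2 : s ^ 2 ≤ 0.0988 := by nlinarith
    have h1s2 : 0 < 1 - s ^ 2 := by linarith
    set y := 2 * s / (1 - s ^ 2) with hy
    have hy0 : 0 ≤ y := by positivity
    have h1ms : 0 < 1 - s := by linarith
    have e1 : (1 + s) / (1 - s) = 1 + y + y * s := by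
      rw [hy]
      field_simp
      ring
    have h2 : y * s ≤ y ^ 2 / 2 := by
      have : y = 2 * s / (1 - s ^ 2) := hy
      have h3 : s ≤ y / 2 := by
        rw [hy]
        rw [show 2 * s / (1 - s ^ 2) / 2 = s / (1 - s ^ 2) by ring, le_div_iff₀ h1s2]
        nlinarith
      nlinarith
    have h3 : (1 + s) / (1 - s) ≤ exp y := by
      rw [e1]
      have := quadratic_le_exp_of_nonneg hy0
      linarith
    have h4 : 0 ≤ (1 + s) / (1 - s) := by
      apply div_nonneg <;> linarith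
    have h5' : (d : ℝ) * y ≤ 7 / 2 := by
      have h6 : (d : ℝ) * s ≤ π / 2 := by
        have : (d : ℝ) * (π / (2 * d)) = π / 2 := by field_simp
        rw [← this]
        exact mul_le_mul_of_nonneg_left hsx hd0.le
      rw [hy, show (d : ℝ) * (2 * s / (1 - s ^ 2)) = 2 * ((d : ℝ) * s) / (1 - s ^ 2) by ring,
        div_le_iff₀ h1s2]
      nlinarith
    calc ((1 + s) / (1 - s)) ^ d ≤ (exp y) ^ d := pow_le_pow_left₀ h4 h3 d
      _ = exp (d * y) := by rw [← exp_nat_mul]
      _ ≤ exp (7 / 2) := exp_le_exp.mpr h5'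
      _ ≤ 39 := by
        have h7 : exp (7 / 2) ^ 2 ≤ 39 ^ 2 := by
          rw [← exp_nat_mul]
          have : ((2 : ℕ) : ℝ) * (7 / 2) = ((7 : ℕ) : ℝ) * 1 := by norm_num
          rw [this, exp_nat_mul]
          have h8 := exp_one_lt_d9
          have h9 : exp 1 ^ 7 ≤ 2.7182818286 ^ 7 := pow_le_pow_left₀ (exp_pos 1).le h8.le 7
          refine h9.trans ?_
          norm_num
        exact (pow_le_pow_iff_left₀ (exp_pos _).le (by norm_num) (by norm_num)).mp h7

/-- The lower bound for the main weight. -/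
lemma wt_zero_ge (d : ℕ) (hd : 0 < d) : (2 / 5 : ℝ) * d ≤ Riesz.wt d 0 := by
  have hd0 : (0 : ℝ) < d := by exact_mod_cast hd
  have hpi2 := pi_lt_d4
  have hpi0 := pi_pos
  unfold Riesz.wt Riesz.th
  have e : (2 * ((0 : ℕ) : ℝ) + 1) * π / (2 * d) / 2 = π / (4 * d) := by
    push_cast; field_simp; ring
  rw [e]
  have hx0 : 0 ≤ π / (4 * d) := by positivity
  have hx1 : π / (4 * d) < π := by
    rw [div_lt_iff₀ (by positivity)]
    have : (1:ℝ) ≤ d := by exact_mod_cast hd
    nlinarith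
  have hx2 : 0 < π / (4 * d) := by positivity
  have hs0 : 0 < sin (π / (4 * d)) := sin_pos_of_pos_of_lt_pi hx2 hx1
  have hs1 : sin (π / (4 * d)) ≤ π / (4 * d) := sin_le hx0
  have hs2 : sin (π / (4 * d)) ^ 2 ≤ (π / (4 * d)) ^ 2 := pow_le_pow_left₀ hs0.le hs1 2
  rw [le_div_iff₀ (by positivity)]
  have h3 : (2 / 5 : ℝ) * d * (4 * d * (π / (4 * d)) ^ 2) ≤ 1 := by
    have : (2 / 5 : ℝ) * d * (4 * d * (π / (4 * d)) ^ 2) = π ^ 2 / 10 := by
      field_simp; ring
    rw [this, div_le_one (by norm_num)]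
    nlinarith
  have h4 : (2 / 5 : ℝ) * d * (4 * d * sin (π / (4 * d)) ^ 2)
      ≤ (2 / 5 : ℝ) * d * (4 * d * (π / (4 * d)) ^ 2) := by
    apply mul_le_mul_of_nonneg_left _ (by positivity)
    apply mul_le_mul_of_nonneg_left hs2 (by positivity)
  linarith

/-- **Main theorem**: the sum of the level one Fourier coefficients of a Boolean function
of Fourier degree at most `d ≥ 2` is at most `(24/25) d`. -/
theorem level_one_sum_le {n d : ℕ} (hd : 2 ≤ d) (f : (Fin n → Bool) → ℝ) (hf : IsBool f)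
    (hdeg : DegLE f d) : ∑ i, fourier f {i} ≤ (24 / 25 : ℝ) * d := by
  have hd0 : (0 : ℝ) < d := by positivity
  have hd1 : 0 < d := by omega
  rw [← derivative_eval_zero_eq_sum]
  set F := bpoly n f with hFdef
  by_cases hconst : ∃ t ∈ Set.Ioo (-1 : ℝ) 1, |F.eval t| = 1
  · obtain ⟨t, ht, h1⟩ := hconst
    have ht' : |t| < 1 := abs_lt.mpr ht
    obtain ⟨c, hc⟩ := const_of_eval_eq ht' hf h1
    rw [hFdef, hc, bpoly_const]
    simp
  · have hF : ∀ t ∈ Set.Ioo (-1 : ℝ) 1, |F.eval t| < 1 := by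
      intro t ht
      have ht' : |t| ≤ 1 := (abs_lt.mpr ht).le
      have h1 : |F.eval t| ≤ 1 := abs_eval_le ht' hf
      exact lt_of_le_of_ne h1 (fun h => hconst ⟨t, ht, h⟩)
    have hode : ∀ t ∈ Set.Ioo (-1 : ℝ) 1,
        (1 - t ^ 2) * |F.derivative.eval t| ≤ d * (1 - (F.eval t) ^ 2) := by
      intro t ht
      exact ode_bound (abs_lt.mpr ht).le hf hdeg
    have hbd : ∀ t ∈ Set.Icc (-1 : ℝ) 1, |F.eval t| ≤ 1 := by
      intro t ht
      exact abs_eval_le (abs_le.mpr ht) hf
    have hdeg' : F.natDegree ≤ d := bpoly_natDegree f d hdeg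
    have hR := Riesz.riesz_bound hd1 F hdeg' hbd
    set s := sin (π / (2 * d)) with hs
    have hx0 : 0 < π / (2 * d) := by positivity
    have hx1 : π / (2 * d) ≤ π / 4 := by
      apply div_le_div_of_nonneg_left pi_pos.le (by norm_num)
      have : (2:ℝ) ≤ d := by exact_mod_cast hd
      linarith
    have hpi := pi_pos
    have hs0 : 0 ≤ s := (sin_pos_of_pos_of_lt_pi hx0 (by linarith)).le
    have hs1 : s < 1 := by
      have h1 : s ≤ sin (π / 4) := sin_le_sin_of_le_of_le_pi_div_two (by linarith) (by linarith) hx1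
      rw [sin_pi_div_four] at h1
      have hr : √2 * √2 = 2 := mul_self_sqrt (by norm_num)
      have hr1 : 0 ≤ √2 := sqrt_nonneg _
      nlinarith
    have hO := sub_le_of_ode F d hF hode hs0 hs1
    have hK := K_le d hd
    rw [← hs] at hK
    set K := ((1 + s) / (1 - s)) ^ d with hKdef
    have hK1 : 1 ≤ K := by
      apply one_le_pow₀
      rw [le_div_iff₀ (by linarith)]
      linarith
    have ha := wt_zero_ge d hd1
    set a := Riesz.wt d 0 with hadef
    have ha0 : 0 ≤ a := by nlinarith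
    have h2 : a * (F.eval s - F.eval (-s)) ≤ a * (2 * (K - 1) / (K + 1)) :=
      mul_le_mul_of_nonneg_left hO ha0
    have e : a * (2 * (K - 1) / (K + 1)) = 2 * a - 4 * a / (K + 1) := by
      field_simp
      ring
    rw [e] at h2
    have h3 : (d : ℝ) / 25 ≤ 4 * a / (K + 1) := by
      rw [le_div_iff₀ (by linarith)]
      nlinarith
    have h4 : (d : ℝ) - 2 * a + a * (F.eval s - F.eval (-s)) ≤ (24 / 25) * d := by
      linarith
    exact hR.trans h4

end Vale.Agent.Lib.P047
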